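import Mathlib.Data.Fintype.Card
import Mathlib.Data.Finset.Card
import Mathlib.Tactic

/-!
# P052: the finite core of the parity-free route

`F` is the family of faces (sets of colours of rank at most one) on at most ten colours.
Facts used: faces are closed under subsets (`hd`); no vertex link contains a complete graph on
four vertices (`hL`); a 3-subset of a 4-face lies in another 4-face (`hW`); two 4-faces always
meet (`hD`); there is a 4-face (`hF`).  These facts are contradictory.
-/

namespace Vale.Agent.P052.R2.H416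

variable {α : Type*} [DecidableEq α] {F : Finset α → Prop}

/-- If `{a,b,c,d}` and `{e,b,c,d}` are faces, then `{a,b,e}` is not a face. -/
theorem not_pair (hd : ∀ S T : Finset α, S ⊆ T → F T → F S)
    (hL : ∀ o a b c d : α, [o, a, b, c, d].Nodup →
      ¬ (F {o, a, b} ∧ F {o, a, c} ∧ F {o, a, d} ∧ F {o, b, c} ∧ F {o, b, d} ∧ F {o, c, d}))
    {a b c d e : α} (hn : [a, b, c, d, e].Nodup) (h1 : F {a, b, c, d}) (h2 : F {e, b, c, d}) :
    ¬ F {a, b, e} := by
  intro h
  refine hL b a c d e (by simp at hn ⊢; tauto) ⟨?_, ?_, ?_, ?_, ?_, ?_⟩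
  · exact hd _ _ (by intro x; simp; tauto) h1
  · exact hd _ _ (by intro x; simp; tauto) h1
  · exact hd _ _ (by intro x; simp; tauto) h
  · exact hd _ _ (by intro x; simp; tauto) h1
  · exact hd _ _ (by intro x; simp; tauto) h2
  · exact hd _ _ (by intro x; simp; tauto) h2

/-- No `x` completes both `{a,b,o}` and `{a,c,o}` to 4-faces, if `{a,b,c,o}` is a 4-face. -/
theorem not_two (hd : ∀ S T : Finset α, S ⊆ T → F T → F S)
    (hL : ∀ o a b c d : α, [o, a, b, c, d].Nodup →
      ¬ (F {o, a, b} ∧ F {o, a, c} ∧ F {o, a, d} ∧ F {o, b, c} ∧ F {o, b, d} ∧ F {o, c, d}))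
    {a b c o x : α} (hn : [a, b, c, o, x].Nodup) (h1 : F {a, b, c, o}) (h2 : F {a, b, o, x})
    (h3 : F {a, c, o, x}) : False := by
  refine hL o a b c x (by simp at hn ⊢; tauto) ⟨?_, ?_, ?_, ?_, ?_, ?_⟩
  · exact hd _ _ (by intro x; simp; tauto) h1
  · exact hd _ _ (by intro x; simp; tauto) h1
  · exact hd _ _ (by intro x; simp; tauto) h2
  · exact hd _ _ (by intro x; simp; tauto) h1
  · exact hd _ _ (by intro x; simp; tauto) h2
  · exact hd _ _ (by intro x; simp; tauto) h3

/-- The data attached to a 4-face `{a,b,c,d}` and its `d`-neighbour `{a,b,c,e}`: the new element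
`e`, and the three nonfaces `{d,a,e}`, `{d,b,e}`, `{d,c,e}`. -/
theorem nb (hd : ∀ S T : Finset α, S ⊆ T → F T → F S)
    (hL : ∀ o a b c d : α, [o, a, b, c, d].Nodup →
      ¬ (F {o, a, b} ∧ F {o, a, c} ∧ F {o, a, d} ∧ F {o, b, c} ∧ F {o, b, d} ∧ F {o, c, d}))
    (hW : ∀ a b c d : α, [a, b, c, d].Nodup → F {a, b, c, d} →
      ∃ e, [a, b, c, d, e].Nodup ∧ F {a, b, c, e})
    {a b c d : α} (hn : [a, b, c, d].Nodup) (h : F {a, b, c, d}) :
    ∃ e, [a, b, c, d, e].Nodup ∧ F {a, b, c, e} ∧ ¬ F {d, a, e} ∧ ¬ F {d, b, e} ∧ ¬ F {d, c, e} := by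
  obtain ⟨e, he, hf⟩ := hW a b c d hn h
  refine ⟨e, he, hf, ?_, ?_, ?_⟩
  · exact not_pair hd hL (a := d) (b := a) (c := b) (d := c) (e := e) (by simp at he ⊢; tauto)
      (hd _ _ (by intro x; simp; tauto) h) (hd _ _ (by intro x; simp; tauto) hf)
  · exact not_pair hd hL (a := d) (b := b) (c := a) (d := c) (e := e) (by simp at he ⊢; tauto)
      (hd _ _ (by intro x; simp; tauto) h) (hd _ _ (by intro x; simp; tauto) hf)
  · exact not_pair hd hL (a := d) (b := c) (c := a) (d := b) (e := e) (by simp at he ⊢; tauto)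
      (hd _ _ (by intro x; simp; tauto) h) (hd _ _ (by intro x; simp; tauto) hf)

theorem core [Fintype α] (hcard : Fintype.card α ≤ 10)
    (hd : ∀ S T : Finset α, S ⊆ T → F T → F S)
    (hL : ∀ o a b c d : α, [o, a, b, c, d].Nodup →
      ¬ (F {o, a, b} ∧ F {o, a, c} ∧ F {o, a, d} ∧ F {o, b, c} ∧ F {o, b, d} ∧ F {o, c, d}))
    (hW : ∀ a b c d : α, [a, b, c, d].Nodup → F {a, b, c, d} →
      ∃ e, [a, b, c, d, e].Nodup ∧ F {a, b, c, e})
    (hD : ∀ a b c d a' b' c' d' : α, [a, b, c, d, a', b', c', d'].Nodup →
      F {a, b, c, d} → F {a', b', c', d'} → False)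
    (hF : ∃ a b c d : α, [a, b, c, d].Nodup ∧ F {a, b, c, d}) : False := by
  obtain ⟨a0, a1, a2, a3, hn, hA⟩ := hF
  simp only [List.nodup_cons, List.mem_cons, List.not_mem_nil, or_false, not_or,
    List.nodup_nil, and_true, not_false_eq_true] at hn
  obtain ⟨⟨_, _, _⟩, ⟨_, _⟩, _⟩ := hn
  obtain ⟨b0, hb0, f0, n01, n02, n03⟩ := nb hd hL hW (a := a1) (b := a2) (c := a3) (d := a0)
    (by (simp only [List.nodup_cons, List.mem_cons, List.not_mem_nil, or_false, not_or, List.nodup_nil, and_true, not_false_eq_true]; and_intros <;> first | assumption | (refine Ne.symm ?_; assumption))) (hd _ _ (by (clear * -; intro t; simp only [Finset.mem_insert, Finset.mem_singleton]; tauto)) hA)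
  obtain ⟨b1, hb1, f1, n10, n12, n13⟩ := nb hd hL hW (a := a0) (b := a2) (c := a3) (d := a1)
    (by (simp only [List.nodup_cons, List.mem_cons, List.not_mem_nil, or_false, not_or, List.nodup_nil, and_true, not_false_eq_true]; and_intros <;> first | assumption | (refine Ne.symm ?_; assumption))) (hd _ _ (by (clear * -; intro t; simp only [Finset.mem_insert, Finset.mem_singleton]; tauto)) hA)
  obtain ⟨b2, hb2, f2, n20, n21, n23⟩ := nb hd hL hW (a := a0) (b := a1) (c := a3) (d := a2)
    (by (simp only [List.nodup_cons, List.mem_cons, List.not_mem_nil, or_false, not_or, List.nodup_nil, and_true, not_false_eq_true]; and_intros <;> first | assumption | (refine Ne.symm ?_; assumption))) (hd _ _ (by (clear * -; intro t; simp only [Finset.mem_insert, Finset.mem_singleton]; tauto)) hA)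
  obtain ⟨b3, hb3, f3, n30, n31, n32⟩ := nb hd hL hW (a := a0) (b := a1) (c := a2) (d := a3)
    (by (simp only [List.nodup_cons, List.mem_cons, List.not_mem_nil, or_false, not_or, List.nodup_nil, and_true, not_false_eq_true]; and_intros <;> first | assumption | (refine Ne.symm ?_; assumption))) (hd _ _ (by (clear * -; intro t; simp only [Finset.mem_insert, Finset.mem_singleton]; tauto)) hA)
  simp only [List.nodup_cons, List.mem_cons, List.not_mem_nil, or_false, not_or,
    List.nodup_nil, and_true, not_false_eq_true] at hb0 hb1 hb2 hb3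
  obtain ⟨⟨-, -, -, _⟩, ⟨-, -, _⟩, ⟨-, _⟩, _⟩ := hb0
  obtain ⟨⟨-, -, -, _⟩, ⟨-, -, _⟩, ⟨-, _⟩, _⟩ := hb1
  obtain ⟨⟨-, -, -, _⟩, ⟨-, -, _⟩, ⟨-, _⟩, _⟩ := hb2
  obtain ⟨⟨-, -, -, _⟩, ⟨-, -, _⟩, ⟨-, _⟩, _⟩ := hb3
  -- the `b i` are distinct
  have d01 : b0 ≠ b1 := by
    rintro rfl; exact n12 (hd _ _ (by (clear * -; intro t; simp only [Finset.mem_insert, Finset.mem_singleton]; tauto)) f0)
  have d02 : b0 ≠ b2 := by
    rintro rfl; exact n21 (hd _ _ (by (clear * -; intro t; simp only [Finset.mem_insert, Finset.mem_singleton]; tauto)) f0)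
  have d03 : b0 ≠ b3 := by
    rintro rfl; exact n31 (hd _ _ (by (clear * -; intro t; simp only [Finset.mem_insert, Finset.mem_singleton]; tauto)) f0)
  have d12 : b1 ≠ b2 := by
    rintro rfl; exact n20 (hd _ _ (by (clear * -; intro t; simp only [Finset.mem_insert, Finset.mem_singleton]; tauto)) f1)
  have d13 : b1 ≠ b3 := by
    rintro rfl; exact n30 (hd _ _ (by (clear * -; intro t; simp only [Finset.mem_insert, Finset.mem_singleton]; tauto)) f1)
  have d23 : b2 ≠ b3 := by
    rintro rfl; exact n30 (hd _ _ (by (clear * -; intro t; simp only [Finset.mem_insert, Finset.mem_singleton]; tauto)) f2)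
  -- the three mixed 4-sets are not faces
  have m01 : ¬ F {a0, a1, b2, b3} := by
    intro h
    obtain ⟨x, hx, fx⟩ := hW a2 a3 b0 a1 (by (simp only [List.nodup_cons, List.mem_cons, List.not_mem_nil, or_false, not_or, List.nodup_nil, and_true, not_false_eq_true]; and_intros <;> first | assumption | (refine Ne.symm ?_; assumption))) (hd _ _ (by (clear * -; intro t; simp only [Finset.mem_insert, Finset.mem_singleton]; tauto)) f0)
    have e1 : x ≠ a0 := by rintro rfl; exact n02 (hd _ _ (by (clear * -; intro t; simp only [Finset.mem_insert, Finset.mem_singleton]; tauto)) fx)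
    have e2 : x ≠ b2 := by rintro rfl; exact n23 (hd _ _ (by (clear * -; intro t; simp only [Finset.mem_insert, Finset.mem_singleton]; tauto)) fx)
    have e3 : x ≠ b3 := by rintro rfl; exact n32 (hd _ _ (by (clear * -; intro t; simp only [Finset.mem_insert, Finset.mem_singleton]; tauto)) fx)
    simp only [List.nodup_cons, List.mem_cons, List.not_mem_nil, or_false, not_or,
      List.nodup_nil, and_true, not_false_eq_true] at hx
    obtain ⟨⟨-, -, -, _⟩, ⟨-, -, _⟩, ⟨-, _⟩, _⟩ := hx
    refine hD a2 a3 b0 x a0 a1 b2 b3 ?_ fx h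
    (simp only [List.nodup_cons, List.mem_cons, List.not_mem_nil, or_false, not_or, List.nodup_nil, and_true, not_false_eq_true]; and_intros <;> first | assumption | (refine Ne.symm ?_; assumption))
  have m02 : ¬ F {a0, a2, b1, b3} := by
    intro h
    obtain ⟨x, hx, fx⟩ := hW a1 a3 b0 a2 (by (simp only [List.nodup_cons, List.mem_cons, List.not_mem_nil, or_false, not_or, List.nodup_nil, and_true, not_false_eq_true]; and_intros <;> first | assumption | (refine Ne.symm ?_; assumption))) (hd _ _ (by (clear * -; intro t; simp only [Finset.mem_insert, Finset.mem_singleton]; tauto)) f0)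
    have e1 : x ≠ a0 := by rintro rfl; exact n01 (hd _ _ (by (clear * -; intro t; simp only [Finset.mem_insert, Finset.mem_singleton]; tauto)) fx)
    have e2 : x ≠ b1 := by rintro rfl; exact n13 (hd _ _ (by (clear * -; intro t; simp only [Finset.mem_insert, Finset.mem_singleton]; tauto)) fx)
    have e3 : x ≠ b3 := by rintro rfl; exact n31 (hd _ _ (by (clear * -; intro t; simp only [Finset.mem_insert, Finset.mem_singleton]; tauto)) fx)
    simp only [List.nodup_cons, List.mem_cons, List.not_mem_nil, or_false, not_or,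
      List.nodup_nil, and_true, not_false_eq_true] at hx
    obtain ⟨⟨-, -, -, _⟩, ⟨-, -, _⟩, ⟨-, _⟩, _⟩ := hx
    refine hD a1 a3 b0 x a0 a2 b1 b3 ?_ fx h
    (simp only [List.nodup_cons, List.mem_cons, List.not_mem_nil, or_false, not_or, List.nodup_nil, and_true, not_false_eq_true]; and_intros <;> first | assumption | (refine Ne.symm ?_; assumption))
  have m12 : ¬ F {a1, a2, b0, b3} := by
    intro h
    obtain ⟨x, hx, fx⟩ := hW a0 a3 b1 a2 (by (simp only [List.nodup_cons, List.mem_cons, List.not_mem_nil, or_false, not_or, List.nodup_nil, and_true, not_false_eq_true]; and_intros <;> first | assumption | (refine Ne.symm ?_; assumption))) (hd _ _ (by (clear * -; intro t; simp only [Finset.mem_insert, Finset.mem_singleton]; tauto)) f1)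
    have e1 : x ≠ a1 := by rintro rfl; exact n10 (hd _ _ (by (clear * -; intro t; simp only [Finset.mem_insert, Finset.mem_singleton]; tauto)) fx)
    have e2 : x ≠ b0 := by rintro rfl; exact n03 (hd _ _ (by (clear * -; intro t; simp only [Finset.mem_insert, Finset.mem_singleton]; tauto)) fx)
    have e3 : x ≠ b3 := by rintro rfl; exact n30 (hd _ _ (by (clear * -; intro t; simp only [Finset.mem_insert, Finset.mem_singleton]; tauto)) fx)
    simp only [List.nodup_cons, List.mem_cons, List.not_mem_nil, or_false, not_or,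
      List.nodup_nil, and_true, not_false_eq_true] at hx
    obtain ⟨⟨-, -, -, _⟩, ⟨-, -, _⟩, ⟨-, _⟩, _⟩ := hx
    refine hD a0 a3 b1 x a1 a2 b0 b3 ?_ fx h
    (simp only [List.nodup_cons, List.mem_cons, List.not_mem_nil, or_false, not_or, List.nodup_nil, and_true, not_false_eq_true]; and_intros <;> first | assumption | (refine Ne.symm ?_; assumption))
  -- the three second neighbours
  obtain ⟨x, hx, fx⟩ := hW a0 a1 b3 a2 (by (simp only [List.nodup_cons, List.mem_cons, List.not_mem_nil, or_false, not_or, List.nodup_nil, and_true, not_false_eq_true]; and_intros <;> first | assumption | (refine Ne.symm ?_; assumption))) (hd _ _ (by (clear * -; intro t; simp only [Finset.mem_insert, Finset.mem_singleton]; tauto)) f3)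
  obtain ⟨y, hy, fy⟩ := hW a0 a2 b3 a1 (by (simp only [List.nodup_cons, List.mem_cons, List.not_mem_nil, or_false, not_or, List.nodup_nil, and_true, not_false_eq_true]; and_intros <;> first | assumption | (refine Ne.symm ?_; assumption))) (hd _ _ (by (clear * -; intro t; simp only [Finset.mem_insert, Finset.mem_singleton]; tauto)) f3)
  obtain ⟨z, hz, fz⟩ := hW a1 a2 b3 a0 (by (simp only [List.nodup_cons, List.mem_cons, List.not_mem_nil, or_false, not_or, List.nodup_nil, and_true, not_false_eq_true]; and_intros <;> first | assumption | (refine Ne.symm ?_; assumption))) (hd _ _ (by (clear * -; intro t; simp only [Finset.mem_insert, Finset.mem_singleton]; tauto)) f3)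
  simp only [List.nodup_cons, List.mem_cons, List.not_mem_nil, or_false, not_or,
    List.nodup_nil, and_true, not_false_eq_true] at hx hy hz
  obtain ⟨⟨-, -, -, _⟩, ⟨-, -, _⟩, ⟨-, _⟩, _⟩ := hx
  obtain ⟨⟨-, -, -, _⟩, ⟨-, -, _⟩, ⟨-, _⟩, _⟩ := hy
  obtain ⟨⟨-, -, -, _⟩, ⟨-, -, _⟩, ⟨-, _⟩, _⟩ := hz
  have x3 : x ≠ a3 := by rintro rfl; exact n30 (hd _ _ (by (clear * -; intro t; simp only [Finset.mem_insert, Finset.mem_singleton]; tauto)) fx)
  have x0 : x ≠ b0 := by rintro rfl; exact n01 (hd _ _ (by (clear * -; intro t; simp only [Finset.mem_insert, Finset.mem_singleton]; tauto)) fx)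
  have x1 : x ≠ b1 := by rintro rfl; exact n10 (hd _ _ (by (clear * -; intro t; simp only [Finset.mem_insert, Finset.mem_singleton]; tauto)) fx)
  have x2 : x ≠ b2 := by rintro rfl; exact m01 (hd _ _ (by (clear * -; intro t; simp only [Finset.mem_insert, Finset.mem_singleton]; tauto)) fx)
  have y3 : y ≠ a3 := by rintro rfl; exact n30 (hd _ _ (by (clear * -; intro t; simp only [Finset.mem_insert, Finset.mem_singleton]; tauto)) fy)
  have y0 : y ≠ b0 := by rintro rfl; exact n02 (hd _ _ (by (clear * -; intro t; simp only [Finset.mem_insert, Finset.mem_singleton]; tauto)) fy)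
  have y1 : y ≠ b1 := by rintro rfl; exact m02 (hd _ _ (by (clear * -; intro t; simp only [Finset.mem_insert, Finset.mem_singleton]; tauto)) fy)
  have y2 : y ≠ b2 := by rintro rfl; exact n20 (hd _ _ (by (clear * -; intro t; simp only [Finset.mem_insert, Finset.mem_singleton]; tauto)) fy)
  have z3 : z ≠ a3 := by rintro rfl; exact n31 (hd _ _ (by (clear * -; intro t; simp only [Finset.mem_insert, Finset.mem_singleton]; tauto)) fz)
  have z0 : z ≠ b0 := by rintro rfl; exact m12 (hd _ _ (by (clear * -; intro t; simp only [Finset.mem_insert, Finset.mem_singleton]; tauto)) fz)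
  have z1 : z ≠ b1 := by rintro rfl; exact n12 (hd _ _ (by (clear * -; intro t; simp only [Finset.mem_insert, Finset.mem_singleton]; tauto)) fz)
  have z2 : z ≠ b2 := by rintro rfl; exact n21 (hd _ _ (by (clear * -; intro t; simp only [Finset.mem_insert, Finset.mem_singleton]; tauto)) fz)
  have exy : x ≠ y := by
    rintro rfl
    exact not_two hd hL (a := a0) (b := a1) (c := a2) (o := b3) (x := x) (by (simp only [List.nodup_cons, List.mem_cons, List.not_mem_nil, or_false, not_or, List.nodup_nil, and_true, not_false_eq_true]; and_intros <;> first | assumption | (refine Ne.symm ?_; assumption))) f3 fx fy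
  have exz : x ≠ z := by
    rintro rfl
    exact not_two hd hL (a := a1) (b := a0) (c := a2) (o := b3) (x := x) (by (simp only [List.nodup_cons, List.mem_cons, List.not_mem_nil, or_false, not_or, List.nodup_nil, and_true, not_false_eq_true]; and_intros <;> first | assumption | (refine Ne.symm ?_; assumption)))
      (hd _ _ (by (clear * -; intro t; simp only [Finset.mem_insert, Finset.mem_singleton]; tauto)) f3) (hd _ _ (by (clear * -; intro t; simp only [Finset.mem_insert, Finset.mem_singleton]; tauto)) fx) fz
  have eyz : y ≠ z := by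
    rintro rfl
    exact not_two hd hL (a := a2) (b := a0) (c := a1) (o := b3) (x := y) (by (simp only [List.nodup_cons, List.mem_cons, List.not_mem_nil, or_false, not_or, List.nodup_nil, and_true, not_false_eq_true]; and_intros <;> first | assumption | (refine Ne.symm ?_; assumption)))
      (hd _ _ (by (clear * -; intro t; simp only [Finset.mem_insert, Finset.mem_singleton]; tauto)) f3) (hd _ _ (by (clear * -; intro t; simp only [Finset.mem_insert, Finset.mem_singleton]; tauto)) fy)
      (hd _ _ (by (clear * -; intro t; simp only [Finset.mem_insert, Finset.mem_singleton]; tauto)) fz)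
  have hno : [a0, a1, a2, a3, b0, b1, b2, b3, x, y, z].Nodup := by (simp only [List.nodup_cons, List.mem_cons, List.not_mem_nil, or_false, not_or, List.nodup_nil, and_true, not_false_eq_true]; and_intros <;> first | assumption | (refine Ne.symm ?_; assumption))
  have := hno.length_le_card
  simp only [List.length_cons, List.length_nil] at this
  omega

/-- The finite core in the form produced by the rank calculus: `F S` means `r S ≤ 1`. -/
theorem core_finset {F : Finset (Fin 10) → Prop}
    (hd : ∀ S T : Finset (Fin 10), S ⊆ T → F T → F S)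
    (h2 : ∀ S : Finset (Fin 10), S.card ≤ 2 → F S)
    (hL : ∀ I : Finset (Fin 10), I.card = 5 → ∀ o ∈ I, ∃ x ∈ I, ∃ y ∈ I, ¬ F {o, x, y})
    (hW : ∀ t : Finset (Fin 10), t.card = 3 → ∀ o, o ∉ t → F (insert o t) →
      ∃ o', o' ∉ t ∧ o' ≠ o ∧ F (insert o' t))
    (hC : ∀ A B C : Finset (Fin 10), F A → F B → F C → A ∪ B ∪ C ≠ Finset.univ)
    (hF : ∃ A : Finset (Fin 10), A.card = 4 ∧ F A) : False := by
  refine core (α := Fin 10) (F := F) (by simp) hd ?_ ?_ ?_ ?_
  · rintro o a b c d hn ⟨h1, h2', h3, h4, h5, h6⟩
    simp only [List.nodup_cons, List.mem_cons, List.not_mem_nil, or_false, not_or,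
      List.nodup_nil, and_true, not_false_eq_true] at hn
    obtain ⟨⟨_, _, _, _⟩, ⟨_, _, _⟩, ⟨_, _⟩, _⟩ := hn
    obtain ⟨x, hx, y, hy, hxy⟩ := hL {o, a, b, c, d} (by
      rw [Finset.card_insert_of_notMem, Finset.card_insert_of_notMem,
        Finset.card_insert_of_notMem, Finset.card_insert_of_notMem, Finset.card_singleton] <;>
      simp only [Finset.mem_insert, Finset.mem_singleton, not_or] <;> and_intros <;> assumption)
      o (by simp)
    have e : ∀ u v : Fin 10, ({o, u, v} : Finset (Fin 10)) = {o, v, u} := by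
      intro u v; ext t; simp only [Finset.mem_insert, Finset.mem_singleton]; tauto
    have e1 : ∀ u : Fin 10, F {o, u, u} := fun u => h2 _ (by
      rw [Finset.pair_eq_singleton]; exact Finset.card_le_two)
    have e2 : ∀ u : Fin 10, F {o, o, u} := fun u => h2 _ (by
      rw [Finset.insert_idem]; exact Finset.card_le_two)
    have e3 : ∀ u : Fin 10, F {o, u, o} := fun u => by rw [e]; exact e2 u
    simp only [Finset.mem_insert, Finset.mem_singleton] at hx hy
    apply hxy
    rcases hx with rfl | rfl | rfl | rfl | rfl <;> rcases hy with rfl | rfl | rfl | rfl | rfl <;>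
      first
      | assumption
      | exact e1 _
      | exact e2 _
      | exact e3 _
      | (rw [e]; assumption)
  · intro a b c d hn hf
    simp only [List.nodup_cons, List.mem_cons, List.not_mem_nil, or_false, not_or,
      List.nodup_nil, and_true, not_false_eq_true] at hn
    obtain ⟨⟨_, _, _⟩, ⟨_, _⟩, _⟩ := hn
    have e : ∀ u : Fin 10, insert u ({a, b, c} : Finset (Fin 10)) = {a, b, c, u} := by
      intro u; ext t; simp only [Finset.mem_insert, Finset.mem_singleton]; tauto
    obtain ⟨o', h1, h2', h3⟩ := hW {a, b, c} (by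
      rw [Finset.card_insert_of_notMem, Finset.card_insert_of_notMem, Finset.card_singleton] <;>
      simp only [Finset.mem_insert, Finset.mem_singleton, not_or] <;> and_intros <;> assumption) d
      (by simp only [Finset.mem_insert, Finset.mem_singleton, not_or]; and_intros <;>
          (refine Ne.symm ?_; assumption))
      (by rw [e]; exact hf)
    simp only [Finset.mem_insert, Finset.mem_singleton, not_or] at h1
    obtain ⟨_, _, _⟩ := h1
    exact ⟨o', by (simp only [List.nodup_cons, List.mem_cons, List.not_mem_nil, or_false, not_or, List.nodup_nil, and_true, not_false_eq_true]; and_intros <;> first | assumption | (refine Ne.symm ?_; assumption)), by rw [← e]; exact h3⟩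
  · intro a b c d a' b' c' d' hn hf hf'
    have hcard : ({a, b, c, d, a', b', c', d'} : Finset (Fin 10)).card = 8 := by
      have := List.toFinset_card_of_nodup hn
      simpa using this
    have hle : (Finset.univ \ {a, b, c, d, a', b', c', d'} : Finset (Fin 10)).card ≤ 2 := by
      rw [Finset.card_sdiff_of_subset (Finset.subset_univ _), hcard]; simp
    refine hC _ _ _ hf hf' (h2 _ hle) ?_
    have hu : ({a, b, c, d} ∪ {a', b', c', d'} : Finset (Fin 10)) =
        {a, b, c, d, a', b', c', d'} := by
      ext t; simp only [Finset.mem_union, Finset.mem_insert, Finset.mem_singleton, or_assoc]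
    rw [hu]
    exact Finset.union_sdiff_of_subset (Finset.subset_univ _)
  · obtain ⟨A, hA, hFA⟩ := hF
    obtain ⟨a, b, c, d, _, _, _, _, _, _, rfl⟩ := Finset.card_eq_four.1 hA
    exact ⟨a, b, c, d, by (simp only [List.nodup_cons, List.mem_cons, List.not_mem_nil, or_false, not_or, List.nodup_nil, and_true, not_false_eq_true]; and_intros <;> first | assumption | (refine Ne.symm ?_; assumption)), hFA⟩

end Vale.Agent.P052.R2.H416
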